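import Vale.Agent.P255.Final
import Vale.Agent.P255.Mfd

/-! A closed connected smooth 3-manifold with a Riemannian metric without conjugate points and
with no Riemannian metric of nonpositive sectional curvature. -/

open Vale.Agent.P255
open scoped ContDiff Manifold

theorem Vale.Agent.Results.P255.ClosedManifold.result :
    ∃ (M : Type) (_ : TopologicalSpace M) (_ : ChartedSpace (ℝ × ℝ × ℝ) M)
      (_ : IsManifold 𝓘(ℝ, ℝ × ℝ × ℝ) ∞ M), T2Space M ∧ CompactSpace M ∧ ConnectedSpace M ∧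
      (∃ g : RMetric (ℝ × ℝ × ℝ) M, MNoConj g) ∧
      ¬∃ g : RMetric (ℝ × ℝ × ℝ) M, MNonposCurv g := by
  obtain ⟨Γ, hΓ, ⟨g, hg, hi, hc⟩, hn⟩ := final
  obtain ⟨M, _, _, pr, h1, h2, h3, h⟩ := exists_mcov hΓ
  have := h.isManifold
  obtain ⟨g', e⟩ := h.exists_metric hg hi
  exact ⟨M, _, _, this, h1, h2, h3, ⟨g', h.noConj (e ▸ hc)⟩,
    fun ⟨g, hg⟩ => hn ⟨_, h.isMetric g, h.invariant _, h.nonpos hg⟩⟩
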