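import Vale.Agent.P255.Final

/-! A closed 3-manifold `ℝ³ / Γ` (a graph manifold made of two trefoil complements) with a metric
without conjugate points and with no metric of nonpositive sectional curvature. -/

open Vale.Agent.P255

theorem Vale.Agent.Results.P255.GraphManifold.result :
    ∃ Γ : Subgroup (Equiv.Perm (ℝ × ℝ × ℝ)), IsDeck Γ ∧
      (∃ g, IsMetric g ∧ Invariant Γ g ∧ NoConj g) ∧
      ¬∃ g, IsMetric g ∧ Invariant Γ g ∧ NonposCurv g :=
  final
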